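import Mathlib

/-!
# One-dimensional Prekopa-Leindler inequality (parameter 1/2)

`pl_one_dim`: for measurable `f g h : ℝ → ℝ≥0∞` with `f x * g y ≤ h ((x + y) / 2) ^ 2`
for all `x y`, one has `(∫⁻ f) * (∫⁻ g) ≤ (∫⁻ h) ^ 2`.

Proof: one-dimensional Brunn-Minkowski (compact sets, then measurable sets by inner
regularity), layer cake for functions with supremum one, rescaling, truncation.
-/

open MeasureTheory Set
open scoped ENNReal

namespace Vale.Agent.Lib.P074

namespace PL1D

/-- One-dimensional Brunn-Minkowski for compact sets (midpoint form). -/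
theorem bm_compact {A B C : Set ℝ} (hA : IsCompact A) (hB : IsCompact B)
    (hAne : A.Nonempty) (hBne : B.Nonempty)
    (H : ∀ a ∈ A, ∀ b ∈ B, (a + b) / 2 ∈ C) :
    volume A + volume B ≤ 2 * volume C := by
  set a₁ := sSup A with ha₁
  set b₀ := sInf B with hb₀
  have ha₁A : a₁ ∈ A := hA.sSup_mem hAne
  have hb₀B : b₀ ∈ B := hB.sInf_mem hBne
  have hAle : ∀ a ∈ A, a ≤ a₁ := fun a ha => le_csSup hA.bddAbove ha
  have hBge : ∀ b ∈ B, b₀ ≤ b := fun b hb => csInf_le hB.bddBelow hb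
  set m := (a₁ + b₀) / 2 with hm
  set S₁ : Set ℝ := (fun z => 2 * z) ⁻¹' ((fun w => w + (-b₀)) ⁻¹' A) with hS₁
  set S₂ : Set ℝ := (fun z => 2 * z) ⁻¹' ((fun w => w + (-a₁)) ⁻¹' B) with hS₂
  have hvol1 : volume S₁ = ENNReal.ofReal |(2:ℝ)⁻¹| * volume A := by
    rw [hS₁, Real.volume_preimage_mul_left (by norm_num : (2:ℝ) ≠ 0),
      measure_preimage_add_right]
  have hvol2 : volume S₂ = ENNReal.ofReal |(2:ℝ)⁻¹| * volume B := by
    rw [hS₂, Real.volume_preimage_mul_left (by norm_num : (2:ℝ) ≠ 0),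
      measure_preimage_add_right]
  have hS₁C : S₁ ⊆ C ∩ Iic m := by
    intro z hz
    have hz' : 2 * z + -b₀ ∈ A := hz
    refine ⟨?_, ?_⟩
    · have := H _ hz' _ hb₀B
      convert this using 1; ring
    · have := hAle _ hz'
      simp only [mem_Iic, hm]; linarith
  have hS₂C : S₂ \ {m} ⊆ C \ Iic m := by
    intro z hz
    obtain ⟨hz1, hz2⟩ := hz
    have hz' : 2 * z + -a₁ ∈ B := hz1
    refine ⟨?_, ?_⟩
    · have := H _ ha₁A _ hz'
      convert this using 1; ring
    · have h1 := hBge _ hz'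
      simp only [mem_Iic, not_le]
      have hne : z ≠ m := by simpa using hz2
      rcases lt_or_gt_of_ne hne with h | h
      · exfalso; rw [hm] at h; linarith
      · exact h
  have h1 : volume S₁ ≤ volume (C ∩ Iic m) := measure_mono hS₁C
  have h2 : volume S₂ ≤ volume (C \ Iic m) := by
    calc volume S₂ ≤ volume ((S₂ \ {m}) ∪ {m}) :=
          measure_mono (by intro z hz; by_cases h : z = m <;> simp [h, hz])
      _ ≤ volume (S₂ \ {m}) + volume ({m} : Set ℝ) := measure_union_le _ _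
      _ = volume (S₂ \ {m}) := by simp
      _ ≤ volume (C \ Iic m) := measure_mono hS₂C
  have h3 : volume (C ∩ Iic m) + volume (C \ Iic m) = volume C :=
    measure_inter_add_sdiff C measurableSet_Iic
  have hhalf : ENNReal.ofReal |(2:ℝ)⁻¹| = 2⁻¹ := by
    rw [abs_of_pos (by norm_num), ENNReal.ofReal_inv_of_pos (by norm_num)]; simp
  calc volume A + volume B = 2 * (2⁻¹ * volume A + 2⁻¹ * volume B) := by
        rw [mul_add, ← mul_assoc, ← mul_assoc,
          ENNReal.mul_inv_cancel (by norm_num) (by norm_num), one_mul, one_mul]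
    _ = 2 * (volume S₁ + volume S₂) := by rw [hvol1, hvol2, hhalf]
    _ ≤ 2 * (volume (C ∩ Iic m) + volume (C \ Iic m)) := by gcongr
    _ = 2 * volume C := by rw [h3]

/-- One-dimensional Brunn-Minkowski for measurable sets (midpoint form). -/
theorem bm_meas {A B C : Set ℝ} (hA : MeasurableSet A) (hB : MeasurableSet B)
    (hAne : A.Nonempty) (hBne : B.Nonempty)
    (H : ∀ a ∈ A, ∀ b ∈ B, (a + b) / 2 ∈ C) :
    volume A + volume B ≤ 2 * volume C := by
  obtain ⟨a₀, ha₀⟩ := hAne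
  obtain ⟨b₁, hb₁⟩ := hBne
  have key : ∀ (K : {K : Set ℝ // K ⊆ A ∧ IsCompact K})
      (K' : {K : Set ℝ // K ⊆ B ∧ IsCompact K}),
      volume K.1 + volume K'.1 ≤ 2 * volume C := by
    intro K K'
    have h1 : volume K.1 ≤ volume (K.1 ∪ {a₀}) := measure_mono subset_union_left
    have h2 : volume K'.1 ≤ volume (K'.1 ∪ {b₁}) := measure_mono subset_union_left
    have h3 := bm_compact (A := K.1 ∪ {a₀}) (B := K'.1 ∪ {b₁}) (C := C)
      (K.2.2.union isCompact_singleton) (K'.2.2.union isCompact_singleton)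
      ⟨a₀, by simp⟩ ⟨b₁, by simp⟩
      (by
        intro a ha b hb
        apply H
        · rcases ha with ha | ha
          · exact K.2.1 ha
          · rw [mem_singleton_iff.1 ha]; exact ha₀
        · rcases hb with hb | hb
          · exact K'.2.1 hb
          · rw [mem_singleton_iff.1 hb]; exact hb₁)
    exact (add_le_add h1 h2).trans h3
  have hA' : volume A = ⨆ K : {K : Set ℝ // K ⊆ A ∧ IsCompact K}, volume K.1 := by
    rw [hA.measure_eq_iSup_isCompact]
    apply le_antisymm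
    · refine iSup_le fun K => iSup_le fun hK => iSup_le fun hK' => ?_
      exact le_iSup (fun K : {K : Set ℝ // K ⊆ A ∧ IsCompact K} => volume K.1) ⟨K, hK, hK'⟩
    · refine iSup_le fun K => ?_
      exact le_iSup_of_le K.1 (le_iSup_of_le K.2.1 (le_iSup_of_le K.2.2 le_rfl))
  have hB' : volume B = ⨆ K : {K : Set ℝ // K ⊆ B ∧ IsCompact K}, volume K.1 := by
    rw [hB.measure_eq_iSup_isCompact]
    apply le_antisymm
    · refine iSup_le fun K => iSup_le fun hK => iSup_le fun hK' => ?_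
      exact le_iSup (fun K : {K : Set ℝ // K ⊆ B ∧ IsCompact K} => volume K.1) ⟨K, hK, hK'⟩
    · refine iSup_le fun K => ?_
      exact le_iSup_of_le K.1 (le_iSup_of_le K.2.1 (le_iSup_of_le K.2.2 le_rfl))
  have : Nonempty {K : Set ℝ // K ⊆ A ∧ IsCompact K} :=
    ⟨⟨∅, empty_subset _, isCompact_empty⟩⟩
  have : Nonempty {K : Set ℝ // K ⊆ B ∧ IsCompact K} :=
    ⟨⟨∅, empty_subset _, isCompact_empty⟩⟩
  rw [hA', hB']
  exact ENNReal.iSup_add_iSup_le key

/-- Layer-cake step: functions with values in `[0,1]` and supremum one. -/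
theorem pl_unit (F G Hh : ℝ → ℝ) (hF : Measurable F) (hG : Measurable G) (hH : Measurable Hh)
    (F0 : ∀ x, 0 ≤ F x) (G0 : ∀ x, 0 ≤ G x) (H0 : ∀ x, 0 ≤ Hh x)
    (F1 : ∀ x, F x ≤ 1) (G1 : ∀ x, G x ≤ 1)
    (Fsup : ∀ t : ℝ, t < 1 → ∃ x, t < F x) (Gsup : ∀ t : ℝ, t < 1 → ∃ x, t < G x)
    (H : ∀ x y, F x * G y ≤ Hh ((x + y) / 2) ^ 2) :
    (∫⁻ x, ENNReal.ofReal (F x)) + (∫⁻ x, ENNReal.ofReal (G x))
      ≤ 2 * ∫⁻ x, ENNReal.ofReal (Hh x) := by
  rw [lintegral_eq_lintegral_meas_lt volume (Filter.Eventually.of_forall F0) hF.aemeasurable,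
    lintegral_eq_lintegral_meas_lt volume (Filter.Eventually.of_forall G0) hG.aemeasurable,
    lintegral_eq_lintegral_meas_lt volume (Filter.Eventually.of_forall H0) hH.aemeasurable]
  calc (∫⁻ t in Ioi (0:ℝ), volume {a | t < F a}) + ∫⁻ t in Ioi (0:ℝ), volume {a | t < G a}
      ≤ ∫⁻ t in Ioi (0:ℝ), (volume {a | t < F a} + volume {a | t < G a}) :=
        le_lintegral_add _ _
    _ ≤ ∫⁻ t in Ioi (0:ℝ), 2 * volume {a | t < Hh a} := by
        refine setLIntegral_mono' measurableSet_Ioi (fun t ht => ?_)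
        have ht0 : (0:ℝ) < t := ht
        by_cases ht1 : t < 1
        · refine bm_meas (measurableSet_lt measurable_const hF)
            (measurableSet_lt measurable_const hG) (Fsup t ht1) (Gsup t ht1) ?_
          intro a ha b hb
          have ha' : t < F a := ha
          have hb' : t < G b := hb
          show t < Hh ((a + b) / 2)
          by_contra hcon
          push Not at hcon
          have h1 : Hh ((a + b) / 2) ^ 2 ≤ t ^ 2 := by
            have := H0 ((a + b) / 2); nlinarith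
          have h2 : t ^ 2 < F a * G b := by nlinarith
          linarith [H a b]
        · push Not at ht1
          have hFe : {a | t < F a} = ∅ := by
            ext a
            simp only [mem_ofPred_eq, mem_empty_iff_false, iff_false, not_lt]
            exact (F1 a).trans ht1
          have hGe : {a | t < G a} = ∅ := by
            ext a
            simp only [mem_ofPred_eq, mem_empty_iff_false, iff_false, not_lt]
            exact (G1 a).trans ht1
          rw [hFe, hGe]; simp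
    _ = 2 * ∫⁻ t in Ioi (0:ℝ), volume {a | t < Hh a} :=
        lintegral_const_mul' _ _ (by simp)

/-- AM-GM in the extended nonnegative reals. -/
theorem amgm {u v w : ℝ≥0∞} (h : u + v ≤ 2 * w) : u * v ≤ w ^ 2 := by
  by_cases hw : w = ∞
  · simp [hw]
  have h2w : 2 * w ≠ ∞ := ENNReal.mul_ne_top (by simp) hw
  have hu : u ≠ ∞ := ne_top_of_le_ne_top h2w (le_self_add.trans h)
  have hv : v ≠ ∞ := ne_top_of_le_ne_top h2w (le_add_self.trans h)
  lift u to NNReal using hu
  lift v to NNReal using hv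
  lift w to NNReal using hw
  norm_cast at h ⊢
  have h' : (u:ℝ) + v ≤ 2 * w := by exact_mod_cast h
  have : (u:ℝ) * v ≤ (w:ℝ) ^ 2 := by
    nlinarith [sq_nonneg ((u:ℝ) - v), u.coe_nonneg, v.coe_nonneg, w.coe_nonneg]
  exact_mod_cast this

/-- The bounded case. -/
theorem pl_bdd (f g h : ℝ → ℝ≥0∞) (hf : Measurable f) (hg : Measurable g) (hh : Measurable h)
    (H : ∀ x y, f x * g y ≤ h ((x + y) / 2) ^ 2)
    (Mf Mg : ℝ≥0∞) (hMf : Mf ≠ ∞) (hMg : Mg ≠ ∞) (hfM : ∀ x, f x ≤ Mf) (hgM : ∀ x, g x ≤ Mg) :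
    (∫⁻ x, f x) * (∫⁻ x, g x) ≤ (∫⁻ x, h x) ^ 2 := by
  set a := ⨆ x, f x with ha
  set b := ⨆ x, g x with hb
  have ha_top : a ≠ ∞ := ne_top_of_le_ne_top hMf (iSup_le hfM)
  have hb_top : b ≠ ∞ := ne_top_of_le_ne_top hMg (iSup_le hgM)
  have hfa : ∀ x, f x ≤ a := fun x => le_iSup f x
  have hgb : ∀ x, g x ≤ b := fun x => le_iSup g x
  by_cases ha0 : a = 0
  · have : ∀ x, f x = 0 := fun x => le_antisymm (ha0 ▸ hfa x) zero_le
    simp [this]
  by_cases hb0 : b = 0
  · have : ∀ x, g x = 0 := fun x => le_antisymm (hb0 ▸ hgb x) zero_le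
    simp [this]
  have hf_top : ∀ x, f x ≠ ∞ := fun x => ne_top_of_le_ne_top ha_top (hfa x)
  have hg_top : ∀ x, g x ≠ ∞ := fun x => ne_top_of_le_ne_top hb_top (hgb x)
  set a' := a.toReal with ha'
  set b' := b.toReal with hb'
  have ha'pos : 0 < a' := ENNReal.toReal_pos ha0 ha_top
  have hb'pos : 0 < b' := ENNReal.toReal_pos hb0 hb_top
  set c := Real.sqrt (a' * b') with hc
  have hcpos : 0 < c := Real.sqrt_pos.2 (mul_pos ha'pos hb'pos)
  have hc2 : c ^ 2 = a' * b' := Real.sq_sqrt (mul_pos ha'pos hb'pos).le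
  have hcE : ENNReal.ofReal c ^ 2 = a * b := by
    rw [← ENNReal.ofReal_pow hcpos.le, hc2, ENNReal.ofReal_mul ha'pos.le,
      ENNReal.ofReal_toReal ha_top, ENNReal.ofReal_toReal hb_top]
  set h' : ℝ → ℝ≥0∞ := fun x => min (h x) (ENNReal.ofReal c) with hh'
  have hh'_top : ∀ x, h' x ≠ ∞ := fun x =>
    ne_top_of_le_ne_top ENNReal.ofReal_ne_top (min_le_right _ _)
  have hh'meas : Measurable h' := hh.min measurable_const
  have H' : ∀ x y, f x * g y ≤ h' ((x + y) / 2) ^ 2 := by
    intro x y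
    rcases le_total (h ((x + y) / 2)) (ENNReal.ofReal c) with h1 | h1
    · simp only [hh', min_eq_left h1]; exact H x y
    · simp only [hh', min_eq_right h1]; rw [hcE]; exact mul_le_mul' (hfa x) (hgb y)
  set F : ℝ → ℝ := fun x => (f x).toReal / a' with hF
  set G : ℝ → ℝ := fun x => (g x).toReal / b' with hG
  set Hh : ℝ → ℝ := fun x => (h' x).toReal / c with hHh
  have Fsup : ∀ t : ℝ, t < 1 → ∃ x, t < F x := by
    intro t ht
    have hlt : ENNReal.ofReal (t * a') < a := by
      rcases le_or_gt 0 t with h0 | h0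
      · rw [ENNReal.ofReal_lt_iff_lt_toReal (mul_nonneg h0 ha'pos.le) ha_top]
        nlinarith
      · rw [ENNReal.ofReal_of_nonpos (by nlinarith)]
        exact pos_iff_ne_zero.2 ha0
    obtain ⟨x, hx⟩ := lt_iSup_iff.1 hlt
    refine ⟨x, ?_⟩
    simp only [hF]
    rw [lt_div_iff₀ ha'pos]
    rcases le_or_gt 0 (t * a') with h0 | h0
    · exact (ENNReal.ofReal_lt_iff_lt_toReal h0 (hf_top x)).1 hx
    · exact lt_of_lt_of_le h0 ENNReal.toReal_nonneg
  have Gsup : ∀ t : ℝ, t < 1 → ∃ x, t < G x := by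
    intro t ht
    have hlt : ENNReal.ofReal (t * b') < b := by
      rcases le_or_gt 0 t with h0 | h0
      · rw [ENNReal.ofReal_lt_iff_lt_toReal (mul_nonneg h0 hb'pos.le) hb_top]
        nlinarith
      · rw [ENNReal.ofReal_of_nonpos (by nlinarith)]
        exact pos_iff_ne_zero.2 hb0
    obtain ⟨x, hx⟩ := lt_iSup_iff.1 hlt
    refine ⟨x, ?_⟩
    simp only [hG]
    rw [lt_div_iff₀ hb'pos]
    rcases le_or_gt 0 (t * b') with h0 | h0
    · exact (ENNReal.ofReal_lt_iff_lt_toReal h0 (hg_top x)).1 hx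
    · exact lt_of_lt_of_le h0 ENNReal.toReal_nonneg
  have key := pl_unit F G Hh (hf.ennreal_toReal.div_const _) (hg.ennreal_toReal.div_const _)
    (hh'meas.ennreal_toReal.div_const _)
    (fun x => div_nonneg ENNReal.toReal_nonneg ha'pos.le)
    (fun x => div_nonneg ENNReal.toReal_nonneg hb'pos.le)
    (fun x => div_nonneg ENNReal.toReal_nonneg hcpos.le)
    (fun x => by
      simp only [hF]; rw [div_le_one ha'pos]; exact ENNReal.toReal_mono ha_top (hfa x))
    (fun x => by
      simp only [hG]; rw [div_le_one hb'pos]; exact ENNReal.toReal_mono hb_top (hgb x))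
    Fsup Gsup
    (by
      intro x y
      simp only [hF, hG, hHh]
      have h1 : (f x).toReal * (g y).toReal ≤ (h' ((x + y) / 2)).toReal ^ 2 := by
        rw [← ENNReal.toReal_mul, ← ENNReal.toReal_pow]
        exact ENNReal.toReal_mono (ENNReal.pow_ne_top (hh'_top _)) (H' x y)
      rw [div_mul_div_comm, div_pow, hc2]
      exact div_le_div_of_nonneg_right h1 (mul_pos ha'pos hb'pos).le)
  have hfint : ∫⁻ x, f x = a * ∫⁻ x, ENNReal.ofReal (F x) := by
    rw [← lintegral_const_mul' a _ ha_top]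
    congr 1; ext x
    simp only [hF]
    rw [ENNReal.ofReal_div_of_pos ha'pos, ENNReal.ofReal_toReal (hf_top x),
      ENNReal.ofReal_toReal ha_top, ENNReal.mul_div_cancel ha0 ha_top]
  have hgint : ∫⁻ x, g x = b * ∫⁻ x, ENNReal.ofReal (G x) := by
    rw [← lintegral_const_mul' b _ hb_top]
    congr 1; ext x
    simp only [hG]
    rw [ENNReal.ofReal_div_of_pos hb'pos, ENNReal.ofReal_toReal (hg_top x),
      ENNReal.ofReal_toReal hb_top, ENNReal.mul_div_cancel hb0 hb_top]
  have hhint : ENNReal.ofReal c * ∫⁻ x, ENNReal.ofReal (Hh x) ≤ ∫⁻ x, h x := by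
    rw [← lintegral_const_mul' _ _ ENNReal.ofReal_ne_top]
    refine lintegral_mono (fun x => ?_)
    simp only [hHh]
    rw [ENNReal.ofReal_div_of_pos hcpos, ENNReal.ofReal_toReal (hh'_top x),
      ENNReal.mul_div_cancel (by simpa using hcpos) ENNReal.ofReal_ne_top]
    exact min_le_left _ _
  have hamgm := amgm key
  calc (∫⁻ x, f x) * (∫⁻ x, g x)
      = (a * b) * ((∫⁻ x, ENNReal.ofReal (F x)) * ∫⁻ x, ENNReal.ofReal (G x)) := by
        rw [hfint, hgint]; ring
    _ ≤ (a * b) * (∫⁻ x, ENNReal.ofReal (Hh x)) ^ 2 := by gcongr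
    _ = (ENNReal.ofReal c * ∫⁻ x, ENNReal.ofReal (Hh x)) ^ 2 := by rw [mul_pow, hcE]
    _ ≤ (∫⁻ x, h x) ^ 2 := by gcongr

theorem iSup_min_nat (a : ℝ≥0∞) : ⨆ n : ℕ, min a (n : ℝ≥0∞) = a := by
  apply le_antisymm
  · exact iSup_le fun n => min_le_left _ _
  · by_cases ha : a = ∞
    · subst ha
      simp only [min_eq_right le_top]
      rw [ENNReal.iSup_natCast]
    · obtain ⟨n, hn⟩ := ENNReal.exists_nat_gt ha
      exact le_iSup_of_le n (by rw [min_eq_left hn.le])

end PL1D

/-- One-dimensional Prekopa-Leindler inequality with parameter `1/2`. -/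
theorem pl_one_dim (f g h : ℝ → ℝ≥0∞) (hf : Measurable f) (hg : Measurable g) (hh : Measurable h)
    (H : ∀ x y, f x * g y ≤ h ((x + y) / 2) ^ 2) :
    (∫⁻ x, f x) * (∫⁻ x, g x) ≤ (∫⁻ x, h x) ^ 2 := by
  have trunc : ∀ u : ℝ → ℝ≥0∞, Measurable u →
      ∫⁻ x, u x = ⨆ n : ℕ, ∫⁻ x, min (u x) (n : ℝ≥0∞) := by
    intro u hu
    rw [← lintegral_iSup (fun n => hu.min measurable_const)
      (fun n m hnm x => min_le_min le_rfl (by exact_mod_cast hnm))]
    congr 1; ext x
    exact (PL1D.iSup_min_nat (u x)).symm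
  rw [trunc f hf, trunc g hg, ENNReal.iSup_mul]
  refine iSup_le fun n => ?_
  rw [ENNReal.mul_iSup]
  refine iSup_le fun m => ?_
  exact PL1D.pl_bdd _ _ h (hf.min measurable_const) (hg.min measurable_const) hh
    (fun x y => (mul_le_mul' (min_le_left _ _) (min_le_left _ _)).trans (H x y))
    n m (ENNReal.natCast_ne_top n) (ENNReal.natCast_ne_top m)
    (fun x => min_le_right _ _) (fun x => min_le_right _ _)

end Vale.Agent.Lib.P074
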